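import Vale.Agent.P131.Pencil

/-!
A Lomonosov theorem for bilinear pencil relations.
-/

open Vale.Agent.P131

universe u

theorem Vale.Agent.Results.P131.PencilLomonosov.result
    (X : Type u) [NormedAddCommGroup X] [NormedSpace ℂ X] (T : X →L[ℂ] X)
    (hns : ∀ c : ℂ, T ≠ c • 1) (K : X →L[ℂ] X) (hK : IsCompactOperator K) (hK0 : K ≠ 0)
    (c d : Polynomial ℂ) (hind : ∀ a b : ℂ, a • c + b • d = 0 → a = 0 ∧ b = 0)
    (α β γ δ : ℂ) (hne : α ≠ 0 ∨ β ≠ 0 ∨ γ ≠ 0 ∨ δ ≠ 0)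
    (hrel : α • (Polynomial.aeval T c * K * Polynomial.aeval T c)
      + β • (Polynomial.aeval T c * K * Polynomial.aeval T d)
      + γ • (Polynomial.aeval T d * K * Polynomial.aeval T c)
      + δ • (Polynomial.aeval T d * K * Polynomial.aeval T d) = 0) :
    ∃ M : Submodule ℂ X, IsClosed (M : Set X) ∧ M ≠ ⊥ ∧ M ≠ ⊤ ∧
      ∀ A : X →L[ℂ] X, Commute A T → ∀ x ∈ M, A x ∈ M := by
  by_contra h
  refine not_transitiveCommutant hns K hK hK0 c d hind α β γ δ hne hrel fun M hM hinv => ?_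
  by_contra hM'
  push Not at hM'
  exact h ⟨M, hM, hM'.1, hM'.2, hinv⟩
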